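import Vale.Agent.P125W88.Main

namespace Vale.Agent.Results.P125.AChains

open MeasureTheory Vale.Agent.P125W88

universe u v w

/-- (1) Markov chains with a given initial distribution and transition matrix exist. (2) For every
such chain the expectations of functions of `Z 0` and `Z t` exist and are the usual finite sums,
and a reversible chain is stationary. (3) A real normed space with Markov type `p > 1` is
superreflexive and has an equivalent uniformly smooth norm. -/
theorem result :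
    (∀ (S : Type) [Fintype S] (π : S → ℝ) (P : Matrix S S ℝ), (∀ i, 0 ≤ π i) → ∑ i, π i = 1 →
      (∀ i j, 0 ≤ P i j) → (∀ i, ∑ j, P i j = 1) →
      ∃ (Ω : Type) (_ : MeasurableSpace Ω) (μ : Measure Ω) (Z : ℕ → Ω → S), IsChain μ π P Z) ∧
    (∀ (S : Type u) (Ω : Type v) [Fintype S] [DecidableEq S] [MeasurableSpace Ω] (μ : Measure Ω)
      (π : S → ℝ) (P : Matrix S S ℝ) (Z : ℕ → Ω → S), IsChain μ π P Z →
      (∀ (t : ℕ) (g : S → S → ℝ), Integrable (fun ω => g (Z 0 ω) (Z t ω)) μ ∧
        ∫ ω, g (Z 0 ω) (Z t ω) ∂μ = ∑ i, ∑ j, π i * (P ^ t) i j * g i j) ∧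
      ((∀ i j, π i * P i j = π j * P j i) → ∀ t j, μ.real {ω | Z t ω = j} = π j)) ∧
    ∀ (X : Type w) [NormedAddCommGroup X] [NormedSpace ℝ X] (p : ℝ), 1 < p → MarkovType X p →
      _root_.P125.Superreflexive X ∧
        ∃ N : Seminorm ℝ X, _root_.P125.EquivalentNorm N ∧ Smooth N :=
  ⟨fun _ _ _ _ h0 h1 p0 p1 => exists_chain h0 h1 p0 p1,
    fun _ _ _ _ _ _ _ _ _ h => ⟨h.expect, h.stationary⟩,
    fun _ _ _ _ hp h => main hp h⟩

end Vale.Agent.Results.P125.AChains
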